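import Mathlib

/-!
Runs of equal entries in the first row of a circulant Hadamard matrix are short.
Energy identity: the sum over all cyclic windows of length `m ≤ n` of the squared window sum
equals `m * n`.  A run of length `L` forces large window sums near the run.
-/

namespace Vale.Agent.Results.P033.CirculantRunBound

open Finset

variable {n : ℕ} [NeZero n]

/-- window sum of length `m` starting at `s` -/
def win (h : ZMod n → ℤ) (m : ℕ) (s : ZMod n) : ℤ := ∑ i ∈ range m, h (s + (i : ZMod n))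

omit [NeZero n] in
lemma cast_sub_ne {i j m : ℕ} (hi : i < m) (hj : j < m) (hm : m ≤ n) (hij : i ≠ j) :
    ((j : ZMod n) - (i : ZMod n)) ≠ 0 := by
  intro H
  have h1 : ((j : ZMod n)) = (i : ZMod n) := sub_eq_zero.mp H
  have h2 := (ZMod.natCast_eq_natCast_iff' j i n).mp h1
  rw [Nat.mod_eq_of_lt (by omega), Nat.mod_eq_of_lt (by omega)] at h2
  omega

lemma energy (h : ZMod n → ℤ) (hsign : ∀ j, h j = 1 ∨ h j = -1)
    (hP : ∀ t : ZMod n, t ≠ 0 → ∑ j, h j * h (j + t) = 0) (m : ℕ) (hm : m ≤ n) :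
    ∑ s, (win h m s) ^ 2 = (m : ℤ) * n := by
  have key : ∀ i ∈ range m, ∀ j ∈ range m,
      ∑ s, h (s + (i : ZMod n)) * h (s + (j : ZMod n)) = if i = j then (n : ℤ) else 0 := by
    intro i hi j hj
    have hi' := mem_range.mp hi
    have hj' := mem_range.mp hj
    have e : ∑ s, h (s + (i : ZMod n)) * h (s + (j : ZMod n))
        = ∑ s, h s * h (s + ((j : ZMod n) - (i : ZMod n))) := by
      refine Fintype.sum_equiv (Equiv.addRight (i : ZMod n)) _ _ ?_
      intro s
      simp only [Equiv.coe_addRight]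
      congr 2
      ring
    rw [e]
    split_ifs with hij
    · subst hij
      have : ∀ s : ZMod n, h s * h (s + ((i : ZMod n) - (i : ZMod n))) = 1 := by
        intro s
        rw [sub_self, add_zero]
        rcases hsign s with hs | hs <;> rw [hs] <;> norm_num
      rw [Finset.sum_congr rfl (fun s _ => this s)]
      simp [ZMod.card]
    · exact hP _ (cast_sub_ne hi' hj' hm hij)
  calc ∑ s, (win h m s) ^ 2
      = ∑ s, ∑ i ∈ range m, ∑ j ∈ range m, h (s + (i : ZMod n)) * h (s + (j : ZMod n)) := by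
        refine Finset.sum_congr rfl fun s _ => ?_
        rw [win, sq, Finset.sum_mul_sum]
    _ = ∑ i ∈ range m, ∑ j ∈ range m, ∑ s, h (s + (i : ZMod n)) * h (s + (j : ZMod n)) := by
        rw [Finset.sum_comm]
        refine Finset.sum_congr rfl fun i _ => ?_
        rw [Finset.sum_comm]
    _ = ∑ i ∈ range m, ∑ j ∈ range m, (if i = j then (n : ℤ) else 0) := by
        refine Finset.sum_congr rfl fun i hi => Finset.sum_congr rfl fun j hj => key i hi j hj
    _ = (m : ℤ) * n := by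
        have : ∀ i ∈ range m, ∑ j ∈ range m, (if i = j then (n : ℤ) else 0) = n := by
          intro i hi
          rw [Finset.sum_ite_eq]
          simp [hi]
        rw [Finset.sum_congr rfl this]
        simp

omit [NeZero n] in
/-- the sign-weighted window sum is at least (inside) minus (outside) -/
lemma win_ge (h : ZMod n → ℤ) (hsign : ∀ j, h j = 1 ∨ h j = -1) (σ : ℤ) (hσ : σ = 1 ∨ σ = -1)
    (s : ZMod n) (m lo hi : ℕ) (h1 : lo ≤ hi) (h2 : hi ≤ m)
    (hin : ∀ i, lo ≤ i → i < hi → h (s + (i : ZMod n)) = σ) :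
    (2 * ((hi : ℤ) - lo) - m) ≤ σ * win h m s := by
  have hterm : ∀ j, -1 ≤ σ * h j := by
    intro j
    rcases hσ with r | r <;> rcases hsign j with q | q <;> rw [r, q] <;> norm_num
  have hself : σ * σ = 1 := by rcases hσ with r | r <;> rw [r] <;> norm_num
  have split : win h m s = ∑ i ∈ Ico 0 lo, h (s + (i : ZMod n))
      + ∑ i ∈ Ico lo hi, h (s + (i : ZMod n)) + ∑ i ∈ Ico hi m, h (s + (i : ZMod n)) := by
    rw [Finset.sum_Ico_consecutive _ (Nat.zero_le _) h1,
      Finset.sum_Ico_consecutive _ (Nat.zero_le _) h2, win, Finset.range_eq_Ico]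
  have a1 : -((lo : ℤ)) ≤ σ * ∑ i ∈ Ico 0 lo, h (s + (i : ZMod n)) := by
    rw [Finset.mul_sum]
    have := Finset.card_nsmul_le_sum (Ico 0 lo) (fun i => σ * h (s + (i : ZMod n))) (-1 : ℤ)
      (fun i _ => hterm _)
    simpa using this
  have a3 : -((m : ℤ) - hi) ≤ σ * ∑ i ∈ Ico hi m, h (s + (i : ZMod n)) := by
    rw [Finset.mul_sum]
    have := Finset.card_nsmul_le_sum (Ico hi m) (fun i => σ * h (s + (i : ZMod n))) (-1 : ℤ)
      (fun i _ => hterm _)
    simp only [Nat.card_Ico, nsmul_eq_mul] at this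
    rw [Nat.cast_sub h2] at this
    linarith
  have a2 : σ * ∑ i ∈ Ico lo hi, h (s + (i : ZMod n)) = (hi : ℤ) - lo := by
    rw [Finset.mul_sum]
    have : ∀ i ∈ Ico lo hi, σ * h (s + (i : ZMod n)) = 1 := by
      intro i hi'
      rw [hin i (mem_Ico.mp hi').1 (mem_Ico.mp hi').2, hself]
    rw [Finset.sum_congr rfl this]
    simp [Nat.cast_sub h1]
  rw [split, mul_add, mul_add, a2]
  linarith

omit [NeZero n] in
/-- square form of `win_ge` -/
lemma win_sq_ge (h : ZMod n → ℤ) (hsign : ∀ j, h j = 1 ∨ h j = -1) (σ : ℤ) (hσ : σ = 1 ∨ σ = -1)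
    (s : ZMod n) (m lo hi : ℕ) (v : ℤ) (hv : 0 ≤ v) (hval : v = 2 * ((hi : ℤ) - lo) - m)
    (h1 : lo ≤ hi) (h2 : hi ≤ m)
    (hin : ∀ i, lo ≤ i → i < hi → h (s + (i : ZMod n)) = σ) :
    v ^ 2 ≤ (win h m s) ^ 2 := by
  have := win_ge h hsign σ hσ s m lo hi h1 h2 hin
  rw [← hval] at this
  have hσ2 : (σ * win h m s) ^ 2 = (win h m s) ^ 2 := by
    rw [mul_pow]
    rcases hσ with r | r <;> rw [r] <;> norm_num
  rw [← hσ2]
  exact pow_le_pow_left₀ hv this 2

lemma sum_squares (T : ℕ) : 6 * ∑ k ∈ range T, ((k : ℤ) + 1) ^ 2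
    = (T : ℤ) * (T + 1) * (2 * T + 1) := by
  induction T with
  | zero => simp
  | succ T ih =>
    rw [Finset.sum_range_succ, mul_add, ih]
    push_cast
    ring

/-- the main inequality for an even window length `2 (T + 1)` -/
lemma main_ineq (h : ZMod n → ℤ) (hsign : ∀ j, h j = 1 ∨ h j = -1)
    (hP : ∀ t : ZMod n, t ≠ 0 → ∑ j, h j * h (j + t) = 0) (a : ZMod n) (T C : ℕ)
    (hLn : 2 * T + 2 + C ≤ n)
    (hrun : ∀ i : ℕ, i < 2 * T + 2 + C → h (a + i) = h a) :
    2 * (T : ℤ) * (2 * T + 1) + 6 * (C + 1) * (T + 1) ≤ 3 * n := by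
  set m := 2 * T + 2 with hm
  set σ := h a with hσdef
  have hσ : σ = 1 ∨ σ = -1 := hsign a
  have hen := energy h hsign hP m (by omega)
  -- the positions
  let p : ℕ → ZMod n := fun k => a + (k : ZMod n) - (T : ZMod n)
  have hinj : Set.InjOn p (range (T + (C + 1) + T) : Set ℕ) := by
    intro k hk l hl hkl
    have hk' : k < T + (C + 1) + T := by simpa using hk
    have hl' : l < T + (C + 1) + T := by simpa using hl
    have e : (k : ZMod n) = (l : ZMod n) := by
      simpa [p] using hkl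
    have h2 := (ZMod.natCast_eq_natCast_iff' k l n).mp e
    rw [Nat.mod_eq_of_lt (by omega), Nat.mod_eq_of_lt (by omega)] at h2
    exact h2
  have hsub : ∑ k ∈ range (T + (C + 1) + T), (win h m (p k)) ^ 2 ≤ ∑ s, (win h m s) ^ 2 := by
    rw [← Finset.sum_image (f := fun s => (win h m s) ^ 2) hinj]
    exact Finset.sum_le_sum_of_subset_of_nonneg (Finset.subset_univ _) (fun _ _ _ => sq_nonneg _)
  -- shifted positions
  have hshift : ∀ k i q : ℕ, k + i = T + q → p k + (i : ZMod n) = a + (q : ZMod n) := by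
    intro k i q hq
    have : ((k : ZMod n) + (i : ZMod n)) = (T : ZMod n) + (q : ZMod n) := by
      have := congrArg (fun x : ℕ => (x : ZMod n)) hq
      simpa using this
    simp only [p]
    linear_combination this
  -- left part
  have hleft : ∀ k ∈ range T, (2 * ((k : ℤ) + 1)) ^ 2 ≤ (win h m (p k)) ^ 2 := by
    intro k hk
    have hk' := mem_range.mp hk
    refine win_sq_ge h hsign σ hσ (p k) m (T - k) m _ (by positivity) ?_ (by omega) le_rfl ?_
    · rw [Nat.cast_sub hk'.le, hm]; push_cast; ring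
    · intro i hi1 hi2
      rw [hshift k i (k + i - T) (by omega)]
      exact hrun _ (by omega)
  -- central part
  have hcent : ∀ x ∈ range (C + 1), (2 * ((T : ℤ) + 1)) ^ 2 ≤ (win h m (p (T + x))) ^ 2 := by
    intro x hx
    have hx' := mem_range.mp hx
    refine win_sq_ge h hsign σ hσ (p (T + x)) m 0 m _ (by positivity) ?_ (by omega) le_rfl ?_
    · rw [hm]; push_cast; ring
    · intro i _ hi2
      rw [hshift (T + x) i (x + i) (by omega)]
      exact hrun _ (by omega)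
  -- right part
  have hright : ∀ x ∈ range T,
      (2 * (((T - 1 - x : ℕ) : ℤ) + 1)) ^ 2 ≤ (win h m (p (T + (C + 1) + x))) ^ 2 := by
    intro x hx
    have hx' := mem_range.mp hx
    refine win_sq_ge h hsign σ hσ (p (T + (C + 1) + x)) m 0 (2 * T + 1 - x) _ (by positivity) ?_
      (by omega) (by omega) ?_
    · rw [hm, Nat.cast_sub (by omega), Nat.cast_sub (by omega)]
      push_cast
      rw [Nat.cast_sub (by omega)]
      push_cast
      ring
    · intro i _ hi2
      rw [hshift (T + (C + 1) + x) i (C + 1 + x + i) (by omega)]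
      exact hrun _ (by omega)
  -- sum up
  have hsplit : ∑ k ∈ range (T + (C + 1) + T), (win h m (p k)) ^ 2
      = ∑ k ∈ range T, (win h m (p k)) ^ 2 + ∑ x ∈ range (C + 1), (win h m (p (T + x))) ^ 2
        + ∑ x ∈ range T, (win h m (p (T + (C + 1) + x))) ^ 2 := by
    rw [Finset.sum_range_add, Finset.sum_range_add]
  have s1 : ∑ k ∈ range T, (2 * ((k : ℤ) + 1)) ^ 2 ≤ ∑ k ∈ range T, (win h m (p k)) ^ 2 :=
    Finset.sum_le_sum hleft
  have s2 : ∑ x ∈ range (C + 1), (2 * ((T : ℤ) + 1)) ^ 2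
      ≤ ∑ x ∈ range (C + 1), (win h m (p (T + x))) ^ 2 := Finset.sum_le_sum hcent
  have s3 : ∑ x ∈ range T, (2 * (((T - 1 - x : ℕ) : ℤ) + 1)) ^ 2
      ≤ ∑ x ∈ range T, (win h m (p (T + (C + 1) + x))) ^ 2 := Finset.sum_le_sum hright
  have r3 : ∑ x ∈ range T, (2 * (((T - 1 - x : ℕ) : ℤ) + 1)) ^ 2
      = ∑ k ∈ range T, (2 * ((k : ℤ) + 1)) ^ 2 :=
    Finset.sum_range_reflect (fun k : ℕ => (2 * ((k : ℤ) + 1)) ^ 2) T
  have r1 : ∑ k ∈ range T, (2 * ((k : ℤ) + 1)) ^ 2 = 4 * ∑ k ∈ range T, ((k : ℤ) + 1) ^ 2 := by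
    rw [Finset.mul_sum]
    exact Finset.sum_congr rfl fun k _ => by ring
  have r2 : ∑ x ∈ range (C + 1), (2 * ((T : ℤ) + 1)) ^ 2 = ((C : ℤ) + 1) * (2 * ((T : ℤ) + 1)) ^ 2 := by
    simp
  have hS := sum_squares T
  have htotal : 2 * ((T : ℤ) + 1) * (2 * (T : ℤ) * (2 * T + 1) + 6 * (C + 1) * (T + 1))
      ≤ 2 * ((T : ℤ) + 1) * (3 * n) := by
    have hmZ : (m : ℤ) = 2 * (T : ℤ) + 2 := by rw [hm]; push_cast; ring
    have hb : 8 * ∑ k ∈ range T, ((k : ℤ) + 1) ^ 2 + ((C : ℤ) + 1) * (2 * ((T : ℤ) + 1)) ^ 2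
        ≤ (2 * (T : ℤ) + 2) * n := by
      rw [← hmZ, ← hen]
      calc _ = ∑ k ∈ range T, (2 * ((k : ℤ) + 1)) ^ 2 + ∑ x ∈ range (C + 1), (2 * ((T : ℤ) + 1)) ^ 2
            + ∑ x ∈ range T, (2 * (((T - 1 - x : ℕ) : ℤ) + 1)) ^ 2 := by
            rw [r3, r2, r1]; ring
        _ ≤ ∑ k ∈ range T, (win h m (p k)) ^ 2 + ∑ x ∈ range (C + 1), (win h m (p (T + x))) ^ 2
              + ∑ x ∈ range T, (win h m (p (T + (C + 1) + x))) ^ 2 := by linarith
        _ = _ := hsplit.symm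
        _ ≤ _ := hsub
    have : 2 * ((T : ℤ) + 1) * (2 * (T : ℤ) * (2 * T + 1) + 6 * (C + 1) * (T + 1))
        = 4 * (6 * ∑ k ∈ range T, ((k : ℤ) + 1) ^ 2) + 3 * (((C : ℤ) + 1) * (2 * ((T : ℤ) + 1)) ^ 2) := by
      rw [hS]; ring
    rw [this]
    nlinarith [hb]
  exact le_of_mul_le_mul_left htotal (by positivity)

/-- **Run bound.**  If `h` is the first row of a circulant Hadamard matrix of order `n`
(entries `±1`, all periodic autocorrelations at nonzero shifts vanish), and `L ≤ n` consecutive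
entries (cyclically) are equal, then `3 L ^ 2 ≤ 8 n`. -/
theorem result (n : ℕ) [NeZero n] (h : ZMod n → ℤ) (hsign : ∀ j, h j = 1 ∨ h j = -1)
    (hP : ∀ t : ZMod n, t ≠ 0 → ∑ j, h j * h (j + t) = 0) (a : ZMod n) (L : ℕ) (hLn : L ≤ n)
    (hrun : ∀ i : ℕ, i < L → h (a + i) = h a) : 3 * L ^ 2 ≤ 8 * n := by
  have hn : 1 ≤ n := Nat.one_le_iff_ne_zero.mpr (NeZero.ne n)
  by_cases hL : L < 2
  · have : L ^ 2 ≤ 1 := by
      interval_cases L <;> norm_num
    omega
  · push Not at hL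
    obtain ⟨t, ht⟩ : ∃ t, t = (3 * L + 4) / 8 := ⟨_, rfl⟩
    have ht1 : 8 * t ≤ 3 * L + 4 := by omega
    have ht2 : 3 * L + 4 < 8 * t + 8 := by omega
    have ht3 : 1 ≤ t := by omega
    have ht4 : 2 * t ≤ L := by omega
    obtain ⟨T, rfl⟩ : ∃ T, t = T + 1 := ⟨t - 1, by omega⟩
    obtain ⟨C, rfl⟩ : ∃ C, L = 2 * T + 2 + C := ⟨L - (2 * T + 2), by omega⟩
    have key := main_ineq h hsign hP a T C hLn hrun
    have h1 : (8 * ((T : ℤ) + 1)) ≤ 3 * (2 * T + 2 + C) + 4 := by exact_mod_cast ht1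
    have h2 : 3 * (2 * (T : ℤ) + 2 + C) + 4 < 8 * (T + 1) + 8 := by exact_mod_cast ht2
    have hsq : (8 * ((T : ℤ) + 1) - 3 * (2 * T + 2 + C)) ^ 2 ≤ 16 := by
      have : |8 * ((T : ℤ) + 1) - 3 * (2 * T + 2 + C)| ≤ 4 := by
        rw [abs_le]; constructor <;> linarith
      have h3 := sq_abs (8 * ((T : ℤ) + 1) - 3 * (2 * T + 2 + C))
      rw [← h3]
      have := pow_le_pow_left₀ (abs_nonneg _) this 2
      norm_num at this ⊢
      linarith
    have : 3 * (2 * (T : ℤ) + 2 + C) ^ 2 ≤ 8 * n := by nlinarith [key, hsq]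
    exact_mod_cast this

end Vale.Agent.Results.P033.CirculantRunBound
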